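import Vale.Agent.P281.H399.TS.Hol
import Vale.Agent.P281.H83.HK.Defs

/-!
# P281, project T-HK (helper399): closed holomorphic 2-forms on two manifolds with the same complex
structure
-/

open Set Filter Metric Vale.Agent.P272.K
open scoped Topology ContDiff ComplexConjugate ComplexOrder

set_option linter.unusedSectionVars false

noncomputable section

namespace Vale.Agent.P281.H399.HK

open Vale.Agent.P281.H64.TK Vale.Agent.P281.H64.TK.TS Vale.Agent.P281.H864.TS
open Vale.Agent.P281.H864.K (holCompat_symm holCompat_compat jac_comp jac_id jac_congr)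
open Vale.Agent.P281.H399.TS Vale.Agent.P281.H83.HK

variable {d : ℕ}

/-! ### The exterior derivative of a pull-back -/

section alg
variable (J Sg : Matrix (Fin d) (Fin d) ℂ) (Hs Ds : Fin d → Fin d → Fin d → ℂ)

/-- derivative in the direction `l` of the entry `(a, b)` of `Jᵀ s J` -/
def Ad (l a b : Fin d) : ℂ := ∑ x, ∑ y, (Hs y a l * Sg y x * J x b +
  J y a * (∑ m, Ds m y x * J m l) * J x b + J y a * Sg y x * Hs x b l)

theorem Ad_cyc (hS : ∀ y x, Sg y x = -Sg x y) (hH : ∀ y a l, Hs y a l = Hs y l a)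
    (hD : ∀ j k l, Ds l j k + Ds j k l + Ds k l j = 0) (j k l : Fin d) :
    Ad J Sg Hs Ds l j k + Ad J Sg Hs Ds j k l + Ad J Sg Hs Ds k l j = 0 := by
  set T : Fin d → Fin d → Fin d → ℂ := fun p q r => ∑ x, ∑ y, Hs y p q * Sg y x * J x r with hT
  set U : Fin d → Fin d → Fin d → ℂ := fun p q r => ∑ x, ∑ y, ∑ m, Ds m y x *
    (J m p * J y q * J x r) with hU
  have e : ∀ l a b, Ad J Sg Hs Ds l a b = T a l b + U l a b - T b l a := by
    intro l a b
    have h3 : ∑ x, ∑ y, J y a * Sg y x * Hs x b l = -T b l a := by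
      rw [hT, Finset.sum_comm]
      simp only [← Finset.sum_neg_distrib]
      refine Finset.sum_congr rfl fun x _ => Finset.sum_congr rfl fun y _ => ?_
      rw [hS x y]
      ring
    have h2 : ∑ x, ∑ y, J y a * (∑ m, Ds m y x * J m l) * J x b = U l a b := by
      refine Finset.sum_congr rfl fun x _ => Finset.sum_congr rfl fun y _ => ?_
      rw [Finset.mul_sum, Finset.sum_mul]
      exact Finset.sum_congr rfl fun m _ => by ring
    simp only [Ad, Finset.sum_add_distrib]
    rw [h3, h2]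
    ring
  have hTs : ∀ p q r, T p q r = T q p r := fun p q r =>
    Finset.sum_congr rfl fun x _ => Finset.sum_congr rfl fun y _ => by rw [hH]
  have hUs : U l j k + U j k l + U k l j = 0 := by
    have h1 : U j k l = ∑ x, ∑ y, ∑ m, Ds y x m * (J m l * J y j * J x k) := by
      -- `m → y`, `y → x`, `x → m`
      calc U j k l = ∑ m, ∑ x, ∑ y, Ds y x m * (J y j * J x k * J m l) := rfl
        _ = ∑ x, ∑ m, ∑ y, Ds y x m * (J y j * J x k * J m l) := Finset.sum_comm
        _ = ∑ x, ∑ y, ∑ m, Ds y x m * (J y j * J x k * J m l) :=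
            Finset.sum_congr rfl fun x _ => Finset.sum_comm
        _ = _ := Finset.sum_congr rfl fun x _ => Finset.sum_congr rfl fun y _ =>
            Finset.sum_congr rfl fun m _ => by ring
    have h2 : U k l j = ∑ x, ∑ y, ∑ m, Ds x m y * (J m l * J y j * J x k) := by
      -- `m → x`, `y → m`, `x → y`
      have : U k l j = ∑ x, ∑ y, ∑ m, Ds x m y * (J x k * J m l * J y j) := by
        rw [hU]
        calc ∑ x, ∑ y, ∑ m, Ds m y x * (J m k * J y l * J x j)
            = ∑ x, ∑ m, ∑ y, Ds m y x * (J m k * J y l * J x j) :=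
              Finset.sum_congr rfl fun x _ => Finset.sum_comm
          _ = ∑ m, ∑ x, ∑ y, Ds m y x * (J m k * J y l * J x j) := Finset.sum_comm
      rw [this]
      exact Finset.sum_congr rfl fun x _ => Finset.sum_congr rfl fun y _ =>
        Finset.sum_congr rfl fun m _ => by ring
    rw [h1, h2]
    simp only [hU, ← Finset.sum_add_distrib]
    refine Finset.sum_eq_zero fun x _ => Finset.sum_eq_zero fun y _ =>
      Finset.sum_eq_zero fun m _ => ?_
    have := hD y x m
    linear_combination (J m l * J y j * J x k) * this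
  rw [e, e, e, hTs j l k, hTs k j l, hTs l k j]
  linear_combination hUs

end alg

/-- pull-back of a matrix -/
def pm (J w : Matrix (Fin d) (Fin d) ℂ) : Matrix (Fin d) (Fin d) ℂ := J.transpose * w * J

theorem pm_pm (J K w : Matrix (Fin d) (Fin d) ℂ) : pm J (pm K w) = pm (K * J) w := by
  simp only [pm, Matrix.transpose_mul, Matrix.mul_assoc]

theorem pm_one (w : Matrix (Fin d) (Fin d) ℂ) : pm 1 w = w := by
  simp [pm]

theorem pm_smul (c : ℂ) (J w : Matrix (Fin d) (Fin d) ℂ) : pm J (c • w) = c • pm J w := by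
  simp [pm]

theorem pm_zero (J : Matrix (Fin d) (Fin d) ℂ) : pm J 0 = 0 := by
  simp [pm]

theorem pm_alt {J w : Matrix (Fin d) (Fin d) ℂ} (h : w.transpose = -w) :
    (pm J w).transpose = -pm J w := by
  simp only [pm, Matrix.transpose_mul, Matrix.transpose_transpose, h, Matrix.mul_neg,
    Matrix.neg_mul, Matrix.mul_assoc]

theorem pm_app (J w : Matrix (Fin d) (Fin d) ℂ) (a b : Fin d) :
    pm J w a b = ∑ x, (∑ y, J y a * w y x) * J x b := by
  simp [pm, Matrix.mul_apply]

theorem pm_det (J w : Matrix (Fin d) (Fin d) ℂ) : (pm J w).det = J.det ^ 2 * w.det := by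
  simp only [pm, Matrix.det_mul, Matrix.det_transpose]
  ring

theorem differentiableAt_jac {θ : Cm d → Cm d} {z : Cm d} (h : AnalyticAt ℂ θ z) (l k : Fin d) :
    DifferentiableAt ℂ (fun u => jac θ u l k) z := by
  have h2 : DifferentiableAt ℂ (fun u => fderiv ℂ θ u (Pi.single k 1)) z :=
    h.fderiv.differentiableAt.clm_apply (differentiableAt_const _)
  exact (differentiableAt_pi.1 h2) l

/-- symmetry of the second derivatives -/
theorem dd_jac_symm {θ : Cm d → Cm d} {z : Cm d} (h : AnalyticAt ℂ θ z) (y a l : Fin d) :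
    dd l (fun u => jac θ u y a) z = dd a (fun u => jac θ u y l) z := by
  have key : ∀ a l : Fin d, dd l (fun u => jac θ u y a) z =
      fderiv ℂ (fderiv ℂ θ) z (Pi.single l 1) (Pi.single a 1) y := by
    intro a l
    have h1 : DifferentiableAt ℂ (fderiv ℂ θ) z := h.fderiv.differentiableAt
    have h2 : HasFDerivAt (fun u => fderiv ℂ θ u (Pi.single a 1))
        ((fderiv ℂ (fderiv ℂ θ) z).flip (Pi.single a 1)) z := by
      have := h1.hasFDerivAt.clm_apply (hasFDerivAt_const (Pi.single a (1 : ℂ) : Cm d) z)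
      refine this.congr_fderiv ?_
      ext v
      simp
    have h3 := hasFDerivAt_pi'.1 h2 y
    show fderiv ℂ (fun u => jac θ u y a) z (Pi.single l 1) = _
    have h4 : (fun u => jac θ u y a) = fun u => fderiv ℂ θ u (Pi.single a 1) y := rfl
    rw [h4, h3.fderiv]
    rfl
  rw [key, key]
  have hs : IsSymmSndFDerivAt ℂ θ z :=
    (h.contDiffAt (n := ω)).isSymmSndFDerivAt (by simp)
  exact congrFun (hs (Pi.single l 1) (Pi.single a 1)) y

/-- chain rule -/
theorem dd_comp {θ : Cm d → Cm d} {z z' : Cm d} (h : AnalyticAt ℂ θ z) (hz : θ z = z')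
    {g : Cm d → ℂ} (hg : DifferentiableAt ℂ g z') (l : Fin d) :
    dd l (fun u => g (θ u)) z = ∑ m, dd m g z' * jac θ z m l := by
  have h1 : fderiv ℂ (fun u => g (θ u)) z = (fderiv ℂ g z').comp (fderiv ℂ θ z) := by
    rw [← hz]
    exact fderiv_comp z (by rw [hz]; exact hg) h.differentiableAt
  show fderiv ℂ (fun u => g (θ u)) z (Pi.single l 1) = _
  rw [h1, ContinuousLinearMap.comp_apply]
  conv_lhs => rw [pi_eq_sum_univ' (fderiv ℂ θ z (Pi.single l 1)), map_sum]
  refine Finset.sum_congr rfl fun m _ => ?_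
  rw [map_smul, smul_eq_mul, mul_comm]
  rfl

theorem dd_pm {J g : Cm d → Matrix (Fin d) (Fin d) ℂ} {z : Cm d}
    (hJ : ∀ a b, DifferentiableAt ℂ (fun u => J u a b) z)
    (hg : ∀ a b, DifferentiableAt ℂ (fun u => g u a b) z) (l a b : Fin d) :
    dd l (fun u => pm (J u) (g u) a b) z = ∑ x, ∑ y, (dd l (fun u => J u y a) z * g z y x * J z x b +
      J z y a * dd l (fun u => g u y x) z * J z x b +
        J z y a * g z y x * dd l (fun u => J u x b) z) := by
  have e : (fun u => pm (J u) (g u) a b) = fun u => ∑ x, ∑ y, (J u y a * g u y x) * J u x b := by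
    funext u
    rw [pm_app]
    exact Finset.sum_congr rfl fun x _ => Finset.sum_mul _ _ _
  rw [e]
  have h1 : ∀ x y, HasFDerivAt (fun u => (J u y a * g u y x) * J u x b)
      ((J z y a * g z y x) • fderiv ℂ (fun u => J u x b) z + J z x b •
        (J z y a • fderiv ℂ (fun u => g u y x) z + g z y x • fderiv ℂ (fun u => J u y a) z)) z :=
    fun x y => ((hJ y a).hasFDerivAt.mul (hg y x).hasFDerivAt).mul (hJ x b).hasFDerivAt
  have h2 := HasFDerivAt.fun_sum (u := Finset.univ) fun x _ => HasFDerivAt.fun_sum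
    (u := Finset.univ) fun y _ => h1 x y
  show fderiv ℂ _ z (Pi.single l 1) = _
  rw [h2.fderiv, sum_apply]
  refine Finset.sum_congr rfl fun x _ => ?_
  rw [sum_apply]
  refine Finset.sum_congr rfl fun y _ => ?_
  simp only [_root_.add_apply, _root_.smul_apply, smul_eq_mul]
  show _ = fderiv ℂ (fun u => J u y a) z (Pi.single l 1) * g z y x * J z x b +
      J z y a * fderiv ℂ (fun u => g u y x) z (Pi.single l 1) * J z x b +
        J z y a * g z y x * fderiv ℂ (fun u => J u x b) z (Pi.single l 1)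
  ring

/-- **the pull-back of a closed form is closed** -/
theorem dd_pull {θ : Cm d → Cm d} {z z' : Cm d} (h : AnalyticAt ℂ θ z) (hz : θ z = z')
    {s : Cm d → Matrix (Fin d) (Fin d) ℂ} (hs : ∀ a b, DifferentiableAt ℂ (fun u => s u a b) z')
    (alt : (s z').transpose = -s z')
    (closed : ∀ j k l, dd l (fun z => s z j k) z' + dd j (fun z => s z k l) z' +
      dd k (fun z => s z l j) z' = 0) (j k l : Fin d) :
    dd l (fun u => pm (jac θ u) (s (θ u)) j k) z + dd j (fun u => pm (jac θ u) (s (θ u)) k l) z +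
      dd k (fun u => pm (jac θ u) (s (θ u)) l j) z = 0 := by
  have e : ∀ l a b, dd l (fun u => pm (jac θ u) (s (θ u)) a b) z =
      Ad (jac θ z) (s z') (fun y a l => dd l (fun u => jac θ u y a) z)
        (fun m y x => dd m (fun u => s u y x) z') l a b := by
    intro l a b
    rw [dd_pm (J := jac θ) (g := fun u => s (θ u)) (fun a b => differentiableAt_jac h a b)
      (fun a b => (by rw [hz]; exact hs a b : DifferentiableAt ℂ (fun u => s u a b) (θ z)).comp z
        h.differentiableAt) l a b]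
    refine Finset.sum_congr rfl fun x _ => Finset.sum_congr rfl fun y _ => ?_
    rw [dd_comp h hz (hs y x) l, hz]
  rw [e, e, e]
  refine Ad_cyc _ _ _ _ (fun y x => ?_) (fun y a l => dd_jac_symm h y a l) closed j k l
  have := congrFun (congrFun alt x) y
  simpa using this

/-! ### Transport -/

variable {E Γ : Type} [TopologicalSpace E] [Group Γ] [MulAction Γ E]
  {S S' S'' : Sheets d E Γ}
variable {i : Fin S.N} {j j' : Fin S'.N} {k : Fin S''.N} {z z' z'' : Cm d} {θ χ : Cm d → Cm d}

theorem jac_comp' (h : HTr S S' i j z z' θ) (h' : HTr S' S'' j k z' z'' χ) :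
    jac (fun u => χ (θ u)) z = jac χ z' * jac θ z :=
  jac_comp h.eq h'.an.differentiableAt h.an.differentiableAt

variable [Subsingleton Γ]

theorem ch2 {s : Fin S.N → Cm d → Matrix (Fin d) (Fin d) ℂ} (hs : Hol2 S s) {i j : Fin S.N}
    (hz : z ∈ ball (0 : Cm d) 3) (hz' : z' ∈ ball (0 : Cm d) 3) (h : HTr S S i j z z' θ) :
    s i z = pm (jac θ z) (s j z') := hs.change i j z hz z' hz' θ h.an h.eq h.ev

open Classical in
/-- the form `s` of `S'` on `S` -/
def pbM (S S' : Sheets d E Γ) (s : Fin S'.N → Cm d → Matrix (Fin d) (Fin d) ℂ) (i : Fin S.N)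
    (z : Cm d) : Matrix (Fin d) (Fin d) ℂ :=
  if h : ∃ p, Hd S S' i z p then pm (jac h.choose.2.2 z) (s h.choose.1 h.choose.2.1) else 0

theorem pbM_eq {s : Fin S'.N → Cm d → Matrix (Fin d) (Fin d) ℂ} (hs : Hol2 S' s)
    (hz' : z' ∈ ball (0 : Cm d) 3) (h : HTr S S' i j z z' θ) :
    pbM S S' s i z = pm (jac θ z) (s j z') := by
  have hex : ∃ p, Hd S S' i z p := ⟨(j, z', θ), hz', h⟩
  rw [pbM, dif_pos hex]
  obtain ⟨h1, h2⟩ := hex.choose_spec
  set q := hex.choose with hq
  obtain ⟨χ, hχ⟩ := exists_htr_self S' q.1 j h1 hz' (by rw [← h2.pt, h.pt])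
  rw [ch2 hs h1 hz' hχ, pm_pm, ← jac_comp' h2 hχ, jac_congr ((h2.comp hχ).uniq h hz')]

theorem pbM_near {s : Fin S'.N → Cm d → Matrix (Fin d) (Fin d) ℂ} (hs : Hol2 S' s)
    (hz : z ∈ ball (0 : Cm d) 3) (hz' : z' ∈ ball (0 : Cm d) 3) (h : HTr S S' i j z z' θ) :
    pbM S S' s i =ᶠ[𝓝 z] fun u => pm (jac θ u) (s j (θ u)) := by
  filter_upwards [h.near hz hz'] with u hu
  exact pbM_eq hs hu.2.1 hu.2.2

theorem pbM_hol (hc : HolCompat S S') {s : Fin S'.N → Cm d → Matrix (Fin d) (Fin d) ℂ}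
    (hs : Hol2 S' s) : Hol2 S (pbM S S' s) where
  hol i a b := by
    intro z hz
    obtain ⟨j, z', hz', θ, h⟩ := exists_htr' hc i hz
    have h1 : (fun u => pbM S S' s i u a b) =ᶠ[𝓝 z] fun u =>
        ∑ x, (∑ y, jac θ u y a * s j (θ u) y x) * jac θ u x b := by
      filter_upwards [pbM_near hs hz hz' h] with u hu
      rw [hu, pm_app]
    refine (DifferentiableAt.congr_of_eventuallyEq ?_ h1).differentiableWithinAt
    refine DifferentiableAt.fun_sum fun x _ => DifferentiableAt.fun_mul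
      (DifferentiableAt.fun_sum fun y _ => DifferentiableAt.fun_mul (differentiableAt_jac h.an _ _)
        ?_) (differentiableAt_jac h.an _ _)
    have h1 : DifferentiableAt ℂ (fun v => s j v y x) (θ z) := by
      rw [h.eq]
      exact (hs.hol j y x).differentiableAt (isOpen_ball.mem_nhds hz')
    exact h1.comp z h.an.differentiableAt
  alt i z hz := by
    obtain ⟨j, z', hz', θ, h⟩ := exists_htr' hc i hz
    rw [pbM_eq hs hz' h]
    exact pm_alt (hs.alt j z' hz')
  closed i z hz a b l := by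
    obtain ⟨j, z', hz', θ, h⟩ := exists_htr' hc i hz
    have h1 : ∀ l a b, dd l (fun u => pbM S S' s i u a b) z =
        dd l (fun u => pm (jac θ u) (s j (θ u)) a b) z := by
      intro l a b
      have : (fun u => pbM S S' s i u a b) =ᶠ[𝓝 z] fun u => pm (jac θ u) (s j (θ u)) a b := by
        filter_upwards [pbM_near hs hz hz' h] with u hu
        rw [hu]
      show fderiv ℂ _ z _ = fderiv ℂ _ z _
      rw [this.fderiv_eq]
    rw [h1, h1, h1]
    exact dd_pull h.an h.eq (fun a b => (hs.hol j a b).differentiableAt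
      (isOpen_ball.mem_nhds hz')) (hs.alt j z' hz') (hs.closed j z' hz') a b l
  change i j z hz z' hz' θ h1 h2 h3 := by
    have h : HTr S S i j z z' θ := ⟨h1, h2, h3⟩
    obtain ⟨k, z'', hz'', χ, hχ⟩ := exists_htr' hc j hz'
    have h4 : pbM S S' s i z = pm (jac θ z) (pbM S S' s j z') := by
      rw [pbM_eq hs hz'' (h.comp hχ), pbM_eq hs hz'' hχ, jac_comp' h hχ, pm_pm]
    exact h4

theorem pbM_pbM (hc : HolCompat S S') {s : Fin S.N → Cm d → Matrix (Fin d) (Fin d) ℂ}
    (hs : Hol2 S s) {i : Fin S.N} (hz : z ∈ ball (0 : Cm d) 3) :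
    pbM S S' (pbM S' S s) i z = s i z := by
  obtain ⟨j, z', hz', θ, h⟩ := exists_htr' hc i hz
  obtain ⟨χ, hχ⟩ := exists_htr (holCompat_symm hc) j i hz' hz h.pt.symm
  rw [pbM_eq (pbM_hol (holCompat_symm hc) hs) hz' h, pbM_eq hs hz hχ, pm_pm, ← jac_comp' h hχ,
    jac_congr ((h.comp hχ).uniq (htr_refl S i z) hz), jac_id, pm_one]

/-- **generators depend only on the complex structure** -/
theorem gen2_of (hc : HolCompat S S') {s : Fin S'.N → Cm d → Matrix (Fin d) (Fin d) ℂ}
    (h : Gen2 S' s) : Gen2 S (pbM S S' s) where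
  form := pbM_hol hc h.form
  ne := by
    obtain ⟨j, z', hz', hne⟩ := h.ne
    obtain ⟨i, z, hz, χ, hχ⟩ := exists_htr' (holCompat_symm hc) j hz'
    refine ⟨i, z, hz, fun h0 => hne ?_⟩
    rw [← pbM_pbM (holCompat_symm hc) h.form hz', pbM_eq (pbM_hol hc h.form) hz hχ, h0, pm_zero]
  unique t ht := by
    obtain ⟨c, hc'⟩ := h.unique (pbM S' S t) (pbM_hol (holCompat_symm hc) ht)
    refine ⟨c, fun i z hz => ?_⟩
    obtain ⟨j, z', hz', θ, hθ⟩ := exists_htr' hc i hz
    rw [← pbM_pbM hc ht hz, pbM_eq (pbM_hol (holCompat_symm hc) ht) hz' hθ,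
      pbM_eq h.form hz' hθ, hc' j z' hz', pm_smul]

theorem detNe_of (hc : HolCompat S S') {s : Fin S'.N → Cm d → Matrix (Fin d) (Fin d) ℂ}
    (hs : Hol2 S' s) (h : DetNe S' s) : DetNe S (pbM S S' s) := by
  obtain ⟨j, z', hz', hne⟩ := h
  obtain ⟨i, z, hz, χ, hχ⟩ := exists_htr' (holCompat_symm hc) j hz'
  refine ⟨i, z, hz, fun h0 => hne ?_⟩
  rw [← pbM_pbM (holCompat_symm hc) hs hz', pbM_eq (pbM_hol hc hs) hz hχ, pm_det, h0, mul_zero]

end Vale.Agent.P281.H399.HK
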