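import Vale.Agent.P281.H399.TS.Glob
import Vale.Agent.P281.H399.HK.Gen

/-!
# P281, project T-HK (helper399): comparison of two manifolds (2-forms, metrics)
-/

open Set Filter Metric MeasureTheory Vale.Agent.P281 Vale.Agent.P281.H713 Vale.Agent.P272.K
open scoped Topology ContDiff Manifold ComplexConjugate ComplexOrder

set_option linter.unusedSectionVars false

noncomputable section

namespace Vale.Agent.P281.H399.HK

open Vale.Agent.P281.H64.TK Vale.Agent.P281.H64.TK.TS Vale.Agent.P281.H864.TS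
open Vale.Agent.P281.H603.TE (Cmp)
open Vale.Agent.P281.H864.K (holCompat_compat holCompat_refl)
open Vale.Agent.P281.H399.TS Vale.Agent.P281.H83.HK

variable {d : ℕ}

theorem tf_app (m : Matrix (Fin d) (Fin d) ℂ) (u v : Cm d) :
    tf m u v = ∑ j, ∑ k, m j k * (u j * v k) := rfl

theorem tf_dot (m : Matrix (Fin d) (Fin d) ℂ) (u v : Cm d) : tf m u v = u ⬝ᵥ m.mulVec v := by
  rw [tf_app, dotProduct]
  refine Finset.sum_congr rfl fun j _ => ?_
  rw [Matrix.mulVec, dotProduct, Finset.mul_sum]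
  exact Finset.sum_congr rfl fun k _ => by ring

theorem dot_pull (J m K : Matrix (Fin d) (Fin d) ℂ) (u v : Cm d) :
    u ⬝ᵥ (J.transpose * m * K).mulVec v = J.mulVec u ⬝ᵥ m.mulVec (K.mulVec v) := by
  rw [Matrix.mul_assoc, ← Matrix.mulVec_mulVec, Matrix.dotProduct_mulVec, Matrix.vecMul_transpose,
    Matrix.mulVec_mulVec]

theorem tf_pm (J m : Matrix (Fin d) (Fin d) ℂ) (u v : Cm d) :
    tf (pm J m) u v = tf m (J.mulVec u) (J.mulVec v) := by
  rw [tf_dot, tf_dot, pm, dot_pull]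

theorem kf_app (w : Matrix (Fin d) (Fin d) ℂ) (u v : Cm d) : kf w u v =
    Complex.I / 2 * ∑ j, ∑ k, w j k * (u j * conj (v k) - v j * conj (u k)) := rfl

theorem kf_dot (w : Matrix (Fin d) (Fin d) ℂ) (u v : Cm d) : kf w u v =
    Complex.I / 2 * (u ⬝ᵥ w.mulVec (fun k => conj (v k)) - v ⬝ᵥ w.mulVec fun k => conj (u k)) := by
  rw [kf_app, dotProduct, dotProduct, ← Finset.sum_sub_distrib]
  congr 1
  refine Finset.sum_congr rfl fun j _ => ?_
  rw [Matrix.mulVec, dotProduct, Matrix.mulVec, dotProduct, Finset.mul_sum, Finset.mul_sum,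
    ← Finset.sum_sub_distrib]
  exact Finset.sum_congr rfl fun k _ => by ring

theorem conj_mulVec (J : Matrix (Fin d) (Fin d) ℂ) (v : Cm d) :
    ((J.map conj).mulVec fun k => conj (v k)) = fun k => conj (J.mulVec v k) := by
  funext k
  simp [Matrix.mulVec, dotProduct]

theorem kf_pull (J w : Matrix (Fin d) (Fin d) ℂ) (u v : Cm d) :
    kf (J.transpose * w * J.map conj) u v = kf w (J.mulVec u) (J.mulVec v) := by
  rw [kf_dot, kf_dot, dot_pull, dot_pull, conj_mulVec, conj_mulVec]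

variable {E Γ E' Γ' : Type} [TopologicalSpace E] [Group Γ] [MulAction Γ E]
  [TopologicalSpace E'] [Group Γ'] [MulAction Γ' E'] [Subsingleton Γ] [Subsingleton Γ']
  {S : Sheets d E Γ} {w : Fin S.N → Cm d → Matrix (Fin d) (Fin d) ℂ}
  {S' : Sheets d E' Γ'} {w' : Fin S'.N → Cm d → Matrix (Fin d) (Fin d) ℂ} {τ : E ≃ₜ E'}
  {ρ : Γ ≃* Γ'}

theorem cmp_ptd (τ : E ≃ₜ E') {i : Fin S.N} {j : Fin S'.N} {u u' : Cm d} :
    τ (S.σ i u) = S'.σ j u' ↔ S.σ i u = (1 : Γ) • τ.symm (S'.σ j u') := by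
  rw [one_smul]
  exact ⟨fun h => by rw [← h, τ.symm_apply_apply], fun h => by rw [h, τ.apply_symm_apply]⟩

theorem cmp_difd (h : Cmp S w S' w' τ ρ) : Dif S S' τ := by
  intro i j z hz z' hz' e
  obtain ⟨ψ, h1, h2, h3, h4⟩ := holCompat_compat h.hol i j z hz z' hz' 1 ((cmp_ptd τ).1 e)
  exact ⟨ψ, ⟨h1, h2, h4.mono fun u hu => (cmp_ptd τ).2 hu⟩, h3⟩

/-- the smooth transition maps along `τ` are holomorphic -/
theorem cmp_tr (h : Cmp S w S' w' τ ρ) {i : Fin S.N} {j : Fin S'.N} {z z' : Cm d}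
    (hz : z ∈ ball (0 : Cm d) 3) (hz' : z' ∈ ball (0 : Cm d) 3) {ψ : Cm d → Cm d}
    (hψ : Tr S S' τ i j z z' ψ) : ∃ θ, HTr S (S'.pull τ ρ h.eqv) i j z z' θ ∧
      w i z = (H64.TK.jac θ z).transpose * w' j z' * (H64.TK.jac θ z).map conj ∧
      ∀ v, fderiv ℝ ψ z v = (H64.TK.jac θ z).mulVec v := by
  have e : τ (S.σ i z) = S'.σ j z' := by
    have := hψ.2.2.self_of_nhds
    rwa [hψ.2.1] at this
  obtain ⟨θ, h1, h2, -, h4⟩ := h.hol i j z hz z' hz' 1 ((cmp_ptd τ).1 e)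
  have h5 : Tr S S' τ i j z z' θ := ⟨(h1.contDiffAt (n := ∞)).restrict_scalars ℝ, h2,
    h4.mono fun u hu => (cmp_ptd τ).2 hu⟩
  refine ⟨θ, ⟨h1, h2, h4.mono fun u hu => by rw [hu, one_smul]⟩,
    h.met i j z hz z' hz' 1 θ h1 h2 h4, fun v => ?_⟩
  rw [← (Tr.unique h5 hψ hz').fderiv_eq, jac_mulVec, h1.differentiableAt.fderiv_restrictScalars ℝ]
  rfl

theorem cmp_kw (h : Cmp S w S' w' τ ρ) : Pull2 S S' τ (kw w) (kw w') := by
  intro i j z hz z' hz' ψ hψ u v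
  obtain ⟨θ, -, h6, h7⟩ := cmp_tr h hz hz' hψ
  show kf (w i z) u v = kf (w' j z') _ _
  rw [h6, kf_pull, h7, h7]

theorem hol2_pull_iff {hτ : ∀ γ e, τ (γ • e) = ρ γ • τ e}
    {s : Fin S'.N → Cm d → Matrix (Fin d) (Fin d) ℂ} :
    Hol2 S' s ↔ Hol2 (S'.pull τ ρ hτ) s := by
  refine ⟨fun H => ⟨H.hol, H.alt, H.closed, fun i j z hz z' hz' θ a b c =>
    H.change i j z hz z' hz' θ a b ?_⟩, fun H => ⟨H.hol, H.alt, H.closed,
    fun i j z hz z' hz' θ a b c => H.change i j z hz z' hz' θ a b ?_⟩⟩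
  · filter_upwards [c] with u hu
    exact τ.symm.injective hu
  · filter_upwards [c] with u hu
    exact congrArg τ.symm hu

/-- `Gen2` on the isomorphic manifold -/
theorem gen2_pull {hτ : ∀ γ e, τ (γ • e) = ρ γ • τ e}
    {s : Fin S'.N → Cm d → Matrix (Fin d) (Fin d) ℂ} (h : Gen2 S' s) :
    Gen2 (S'.pull τ ρ hτ) s :=
  ⟨hol2_pull_iff.1 h.form, h.ne, fun s' hs' => h.unique s' (hol2_pull_iff.2 hs')⟩

/-- **comparison: the generator `s'` gives a generator** -/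
theorem cmp_gen2 (h : Cmp S w S' w' τ ρ) {s' : Fin S'.N → Cm d → Matrix (Fin d) (Fin d) ℂ}
    (hs' : Gen2 S' s') : ∃ s, Gen2 S s ∧ Pull2 S S' τ (ts s) (ts s') ∧
      (DetNe S' s' → DetNe S s) := by
  have hg : Gen2 (S'.pull τ ρ h.eqv) s' := gen2_pull hs'
  refine ⟨pbM S (S'.pull τ ρ h.eqv) s', gen2_of h.hol hg, ?_, fun hd =>
    detNe_of h.hol hg.form hd⟩
  intro i j z hz z' hz' ψ hψ u v
  obtain ⟨θ, h5, -, h7⟩ := cmp_tr h hz hz' hψ
  show tf (pbM S (S'.pull τ ρ h.eqv) s' i z) u v = tf (s' j z') _ _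
  rw [pbM_eq (S' := S'.pull τ ρ h.eqv) hg.form hz' h5, tf_pm, h7, h7]

end Vale.Agent.P281.H399.HK
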