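import Vale.Agent.P281.H399.HK.RatF

/-!
# P281, project T-HK, block G1' (helper399), 3: `Glob2Stmt`
-/

open Set Filter Metric MeasureTheory Vale.Agent.P281 Vale.Agent.P281.H713 Vale.Agent.P272.K
open scoped Topology ContDiff Manifold ComplexConjugate ComplexOrder

set_option linter.unusedSectionVars false

noncomputable section

namespace Vale.Agent.P281.H399.HK

open Vale.Agent.P281.H64 (IsProperFibration)
open Vale.Agent.P281.H64.TK Vale.Agent.P281.H64.TK.TS Vale.Agent.P281.H864.TS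
open Vale.Agent.P281.H603.K (kah_fib)
open Vale.Agent.P281.H603.TE (sub fsub fW idx rep Cmp kah_fW kfam_sub res ccs)
open Vale.Agent.P281.H747.TS (l2_ext exact_congr exact_zero cl_congr)
open Vale.Agent.P281.H399.TS (pull2_trans dif_refl const_of)
open Vale.Agent.P281.H83.HK

attribute [local instance] ccs

section one
variable {d n : ℕ} {E Γ : Type} [TopologicalSpace E] [T2Space E] [Group Γ] [Subsingleton Γ]
  [MulAction Γ E] [ContinuousConstSMul Γ E] {S : Sheets d E Γ}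

theorem exact_self (α : Fin S.N → Cm d → L2 d) : Exact S fun i z => α i z - α i z :=
  exact_congr exact_zero fun i z _ => l2_ext fun u v => (sub_self (α i z u v)).symm

end one

section
variable {p d : ℕ} {Z Y : Type} [TopologicalSpace Z] [T2Space Z] [ChartedSpace (Cm (p + d)) Z]
  [IsManifold 𝓘(ℂ, Cm (p + d)) ω Z] [TopologicalSpace Y] [T2Space Y] [ChartedSpace (Cm p) Y]
  [IsManifold 𝓘(ℂ, Cm p) ω Y]

/-- some model at `y` has a marking with form `B`, Kähler class `v` and constant `R` -/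
def PPT (f : Z → Y) (w : Chart (p + d) Z → Cm (p + d) → Matrix (Fin (p + d)) (Fin (p + d)) ℂ)
    (N : ℕ) {n : ℕ} (B : Matrix (Fin n) (Fin n) ℝ) (v : Fin n → ℝ) (R : ℝ) (y : Y) : Prop :=
  ∃ (E Γ : Type) (_ : TopologicalSpace E) (_ : T2Space E) (_ : SimplyConnectedSpace E)
    (_ : Group Γ) (_ : MulAction Γ E) (_ : ContinuousConstSMul Γ E)
    (_ : (⊥ : Subgroup Γ).FiniteIndex) (𝓕 : Fam p d E Γ)
    (q : Cm p → E → Z) (χ : OpenPartialHomeomorph Y (Cm p)) (t : Cm p) (ht : t ∈ 𝓕.T)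
    (W : Fin 𝓕.N → Cm p × Cm d → Matrix (Fin p ⊕ Fin d) (Fin p ⊕ Fin d) ℂ)
    (M : Mark2 (sub (𝓕.at t ht) (⊥ : Subgroup Γ)) n), Model (n := p + d) f 𝓕 χ q ∧
      χ.symm t = y ∧ IsPull w 𝓕 q W ∧ KFam 𝓕 W ∧ Nat.card Γ = N ∧
      (∃ s, Gen2 (sub (𝓕.at t ht) (⊥ : Subgroup Γ)) s) ∧
      Bc M (kw (fW (⊥ : Subgroup Γ) W t)) = B ∧
      kc M (fW (⊥ : Subgroup Γ) W t) = v ∧ HasR B M R

/-- a model at `t` with such a marking -/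
def HasT {E Γ : Type} [TopologicalSpace E] [Group Γ] [MulAction Γ E] [ContinuousConstSMul Γ E]
    (𝓕 : Fam p d E Γ) (W : Fin 𝓕.N → Cm p × Cm d → Matrix (Fin p ⊕ Fin d) (Fin p ⊕ Fin d) ℂ)
    (N : ℕ) {n : ℕ} (B : Matrix (Fin n) (Fin n) ℝ) (v : Fin n → ℝ) (R : ℝ) (t : Cm p)
    (ht : t ∈ 𝓕.T) : Prop :=
  Nat.card Γ = N ∧ ∃ (_ : (⊥ : Subgroup Γ).FiniteIndex),
    (∃ s, Gen2 (sub (𝓕.at t ht) (⊥ : Subgroup Γ)) s) ∧
    ∃ M : Mark2 (sub (𝓕.at t ht) (⊥ : Subgroup Γ)) n,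
      Bc M (kw (fW (⊥ : Subgroup Γ) W t)) = B ∧
      kc M (fW (⊥ : Subgroup Γ) W t) = v ∧ HasR B M R

/-- then all the models at `y` have such a marking -/
theorem PPT.all (I : Inputs) (H : Ins) (hd : 2 ≤ d) {f : Z → Y}
    (hf : ContMDiff 𝓘(ℂ, Cm (p + d)) 𝓘(ℂ, Cm p) ω f)
    {w : Chart (p + d) Z → Cm (p + d) → Matrix (Fin (p + d)) (Fin (p + d)) ℂ} (hw : IsKahler w)
    {N n : ℕ} {B : Matrix (Fin n) (Fin n) ℝ} {v : Fin n → ℝ} {R : ℝ} {y : Y}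
    (h : PPT f w N B v R y)
    {E' Γ' : Type} [TopologicalSpace E'] [T2Space E'] [SimplyConnectedSpace E']
    [Group Γ'] [MulAction Γ' E'] [ContinuousConstSMul Γ' E'] {𝓕' : Fam p d E' Γ'}
    {q' : Cm p → E' → Z} {χ' : OpenPartialHomeomorph Y (Cm p)}
    (M' : Model (n := p + d) f 𝓕' χ' q')
    {W' : Fin 𝓕'.N → Cm p × Cm d → Matrix (Fin p ⊕ Fin d) (Fin p ⊕ Fin d) ℂ}
    (hW' : IsPull w 𝓕' q' W') (hK' : KFam 𝓕' W')
    {t' : Cm p} (ht' : t' ∈ 𝓕'.T) (hy : χ'.symm t' = y) : HasT 𝓕' W' N B v R t' ht' := by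
  have hd' : 0 < d := by omega
  obtain ⟨E, Γ, _, _, _, _, _, _, _, 𝓕, q, χ, t, ht, W, M, hM, hy', hW, hK, hc, ⟨s, hs⟩, hB, hv,
    hR⟩ := h
  obtain ⟨τ, ρ, hτ, -, hcc, hmm⟩ := compareK I hd' hf hw M' hM hW' hW ht' ht (by rw [hy, hy'])
  have hcard : Nat.card Γ' = Nat.card Γ := Nat.card_congr ρ.toEquiv
  have hfin : (⊥ : Subgroup Γ').FiniteIndex := ⟨by
    rw [Subgroup.index_bot, hcard, ← Subgroup.index_bot]
    exact Subgroup.FiniteIndex.index_ne_zero⟩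
  have h1 : Cmp (𝓕'.at t' ht') (fibW W' t') (𝓕.at t ht) (fibW W t) τ ρ := ⟨hτ, hcc, hmm⟩
  have h2 : Cmp (sub (𝓕'.at t' ht') (⊥ : Subgroup Γ')) (fW (⊥ : Subgroup Γ') W' t')
      (sub (𝓕.at t ht) (⊥ : Subgroup Γ)) (fW (⊥ : Subgroup Γ) W t) τ
      (res ρ fun γ => by simp) := h1.sub (K := (⊥ : Subgroup Γ')) (K' := (⊥ : Subgroup Γ))
        fun γ => by simp
  obtain ⟨s', hs', hP, -⟩ := cmp_gen2 h2 hs
  have k1 := kah_fW (⊥ : Subgroup Γ') hK' ht'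
  have k2 := kah_fW (⊥ : Subgroup Γ) hK ht
  have c1 : Cl2 (sub (𝓕'.at t' ht') (⊥ : Subgroup Γ')) (ts s') := (H.fo _ _ _ _ hd').1 _ hs'.form
  have c2 : Cl2 (sub (𝓕.at t ht) (⊥ : Subgroup Γ)) (ts s) := (H.fo _ _ _ _ hd').1 _ hs.form
  refine ⟨by rw [hcard, hc], hfin, ⟨s', hs'⟩, ?_⟩
  obtain ⟨M₁, hM₁, hM₂, hcl⟩ := H.pm d E' (⊥ : Subgroup Γ') (sub (𝓕'.at t' ht') (⊥ : Subgroup Γ')) E
    (⊥ : Subgroup Γ) (sub (𝓕.at t ht) (⊥ : Subgroup Γ)) τ n M (fW (⊥ : Subgroup Γ') W' t')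
    (fW (⊥ : Subgroup Γ) W t) (kw (fW (⊥ : Subgroup Γ') W' t')) hd (cmp_difd h2) k1 k2
    ((H.fo _ _ _ _ hd').2.1 _ k1).1 (cmp_kw h2) (exact_self _)
  refine ⟨M₁, by rw [hM₁, hB], by rw [hM₂, hv], HasR.of_one H.fo hd' hs' ?_⟩
  rw [cmp_volS hd' h2 hs'.form hs.form hP, hcl _ _ c1 c2 hP]
  exact hR s hs

/-- moving in a family -/
theorem HasT.move (H : Ins) (hd : 2 ≤ d)
    {E Γ : Type} [TopologicalSpace E] [T2Space E] [SimplyConnectedSpace E]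
    [Group Γ] [MulAction Γ E] [ContinuousConstSMul Γ E] {𝓕 : Fam p d E Γ}
    {W : Fin 𝓕.N → Cm p × Cm d → Matrix (Fin p ⊕ Fin d) (Fin p ⊕ Fin d) ℂ} (hK : KFam 𝓕 W)
    {N n : ℕ} {B : Matrix (Fin n) (Fin n) ℝ} {v : Fin n → ℝ} {R : ℝ} {t : Cm p} {ht : t ∈ 𝓕.T}
    (h : HasT 𝓕 W N B v R t ht) : ∃ (_ : (⊥ : Subgroup Γ).FiniteIndex)
      (M : Mark2 ((fsub 𝓕 (⊥ : Subgroup Γ)).at t ht) n)
      (M' : ∀ s (hs : s ∈ (fsub 𝓕 (⊥ : Subgroup Γ)).T),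
        Mark2 ((fsub 𝓕 (⊥ : Subgroup Γ)).at s hs) n), Nat.card Γ = N ∧
      ∀ s (hs : s ∈ 𝓕.T), IsMvd (𝓕 := fsub 𝓕 (⊥ : Subgroup Γ))
          (fun i => W (idx (⊥ : Subgroup Γ) 𝓕.N i).1) M (M' s hs) ∧
        Bc (M' s hs) (kw (fW (⊥ : Subgroup Γ) W s)) = B ∧
        kc (M' s hs) (fW (⊥ : Subgroup Γ) W s) = v ∧
        (∃ s', Gen2 ((fsub 𝓕 (⊥ : Subgroup Γ)).at s hs) s') ∧ HasR B (M' s hs) R := by
  obtain ⟨hc, hfin, h1, M, hB, hv, hR⟩ := h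
  obtain ⟨M', hM'⟩ := move_fam (𝓕 := fsub 𝓕 (⊥ : Subgroup Γ)) (t := t) (ht := ht) H hd
    (kfam_sub 𝓕 (⊥ : Subgroup Γ) hK) h1 M hB hv hR
  exact ⟨hfin, M, M', hc, hM'⟩

end

/-- the periods are holomorphic -/
theorem holP_of2 (H : Ins) {p d n : ℕ} (hd : 0 < d) {E Γ : Type} [TopologicalSpace E]
    [T2Space E] [Group Γ] [Subsingleton Γ] [MulAction Γ E] [ContinuousConstSMul Γ E]
    {𝓕 : Fam p d E Γ} {W : Fin 𝓕.N → Cm p × Cm d → Matrix (Fin p ⊕ Fin d) (Fin p ⊕ Fin d) ℂ}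
    {T' : Set (Cm p)} (hT' : T' ⊆ 𝓕.T) (ho : IsOpen T')
    {s : Fin 𝓕.N → Cm p × Cm d → Matrix (Fin d) (Fin d) ℂ} (hs : Fam2 𝓕 T' s) {t₀ : Cm p}
    (ht₀ : t₀ ∈ 𝓕.T)
    (M : Mark2 (𝓕.at t₀ ht₀) n) (M' : ∀ t (ht : t ∈ 𝓕.T), Mark2 (𝓕.at t ht) n)
    (hM' : ∀ t ht, IsMvd W M (M' t ht)) {P : Cm p → Fin n → ℂ}
    (hP : ∀ t (ht : t ∈ T'), P t = (M' t (hT' ht)).cl (ts fun i z => s i (t, z))) (k : Fin n)
    {t₁ : Cm p} (h₁ : t₁ ∈ T') : AnalyticAt ℂ (fun t => P t k) t₁ := by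
  classical
  have c : ∀ t (ht : t ∈ T'), Cl2 (𝓕.at t (hT' ht)) (ts fun i z => s i (t, z)) :=
    fun t ht => (H.fo _ _ _ _ hd).1 _ (hs.gen t (hT' ht) ht).form
  have h1 := H.holP p d E Γ 𝓕 T' hT' s t₁ h₁ n (M' t₁ (hT' h₁)) (fun t => if ht : t ∈ T' then
    pb2 (𝓕.at t₁ (hT' h₁)) (𝓕.at t (hT' ht)) id (ts fun i z => s i (t, z))
      else fun _ _ => 0) hd ho hs (fun t ht => by
        rw [dif_pos ht]
        exact ⟨pb2_cl2 continuous_id (htr_f _ _) (c t ht), pb2_pull (c t ht).toF2On⟩) k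
  refine h1.congr ?_
  filter_upwards [ho.mem_nhds h₁] with t ht
  rw [dif_pos ht, cl_mvd (hM' t₁ _) (hM' t _) (c t ht), hP t ht]

/-- **G1'** -/
theorem glob2 (I : Inputs) (H : Ins) : Glob2Stmt := by
  intro p d N Z Y _ _ _ _ _ _ _ _ f S w y₁ hd hf hP hconn hw hy₁ hN
  have hd' : 0 < d := by omega
  have hAB := I.ab p d Z Y f S hd' hf hP
  have hS := hP.isClosed
  -- the initial point
  obtain ⟨E₁, Γ₁, _, _, _, _, _, _, hfin₁, 𝓕₁, q₁, χ₁, t₁, ht₁, hM₁, hχ₁, hcard₁, s₁, hs₁, hdet₁⟩ :=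
    hN
  obtain ⟨W₁, hW₁, hK₁⟩ := I.w p d Z Y f w E₁ Γ₁ 𝓕₁ q₁ _ hf hM₁ hw
  obtain ⟨n, ⟨M₁⟩⟩ := H.mark d E₁ (⊥ : Subgroup Γ₁) (sub (𝓕₁.at _ ht₁) (⊥ : Subgroup Γ₁)) hd'
  set B := Bc M₁ (kw (fW (⊥ : Subgroup Γ₁) W₁ t₁)) with hB
  set v := kc M₁ (fW (⊥ : Subgroup Γ₁) W₁ t₁) with hv
  have hpos : 0 < (bil B (M₁.cl (ts s₁)) (star (M₁.cl (ts s₁)))).re :=
    per_pos H.per hd (kah_fW (⊥ : Subgroup Γ₁) hK₁ ht₁) hs₁ M₁
  have hvol := volS_pos hs₁.form hdet₁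
  set R : ℝ := volS (sub (𝓕₁.at _ ht₁) (⊥ : Subgroup Γ₁)) s₁ ^ 2 /
    (bil B (M₁.cl (ts s₁)) (star (M₁.cl (ts s₁)))).re ^ d with hR
  have hRpos : 0 < R := div_pos (pow_pos hvol 2) (pow_pos hpos d)
  have hR₁ : HasR B M₁ R := HasR.of_one H.fo hd' hs₁ (by
    rw [hR, div_mul_cancel₀ _ (pow_pos hpos d).ne'])
  have hP₁ : PPT f w N B v R y₁ := ⟨E₁, Γ₁, inferInstance, inferInstance,
    inferInstance, inferInstance, inferInstance, inferInstance, hfin₁, 𝓕₁, q₁, χ₁, t₁, ht₁, W₁,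
    M₁, hM₁, hχ₁, hW₁, hK₁, hcard₁, ⟨s₁, hs₁⟩, rfl, rfl, hR₁⟩
  -- the key property
  have key : ∀ y₀ ∉ S, ∃ U ∈ 𝓝 y₀, ∀ y ∈ U, ∀ y' ∈ U,
      PPT f w N B v R y → PPT f w N B v R y' := by
    intro y₀ hy₀
    obtain ⟨E, Γ, _, _, _, _, _, _, 𝓕, q, hM, ht, -⟩ := hAB y₀ hy₀
    obtain ⟨W, hW, hK⟩ := I.w p d Z Y f w E Γ 𝓕 q _ hf hM hw
    set χ := chartAt (Cm p) y₀ with hχ
    have hU : χ.source ∩ χ ⁻¹' 𝓕.T ∈ 𝓝 y₀ :=
      (χ.isOpen_inter_preimage 𝓕.isOpen).mem_nhds ⟨mem_chart_source _ _, ht⟩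
    refine ⟨_, hU, fun y hy y' hy' h => ?_⟩
    have h1 := h.all I H hd hf hw hM hW hK hy.2 (χ.left_inv hy.1)
    obtain ⟨hfin, M, M', hc, h2⟩ := h1.move H hd hK
    obtain ⟨-, h3, h4, h5, h6⟩ := h2 (χ y') hy'.2
    exact ⟨E, Γ, inferInstance, inferInstance, inferInstance, inferInstance, inferInstance,
      inferInstance, hfin, 𝓕, q, χ, χ y', hy'.2, W, M' (χ y') hy'.2, hM, χ.left_inv hy'.1, hW, hK,
      hc, h5, h3, h4, h6⟩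
  have hall : ∀ y ∉ S, PPT f w N B v R y := by
    -- two open sets
    set A : Set Y := {y | y ∉ S ∧ PPT f w N B v R y} with hA
    set A' : Set Y := {y | y ∉ S ∧ ¬ PPT f w N B v R y} with hA'
    have hSo : IsOpen Sᶜ := hS.isOpen_compl
    have hAo : IsOpen A := by
      rw [isOpen_iff_mem_nhds]
      rintro y ⟨hy, hP⟩
      obtain ⟨U, hU, hUP⟩ := key y hy
      filter_upwards [hU, hSo.mem_nhds hy] with y' a b
      exact ⟨b, hUP y (mem_of_mem_nhds hU) y' a hP⟩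
    have hAo' : IsOpen A' := by
      rw [isOpen_iff_mem_nhds]
      rintro y ⟨hy, hP⟩
      obtain ⟨U, hU, hUP⟩ := key y hy
      filter_upwards [hU, hSo.mem_nhds hy] with y' a b
      exact ⟨b, fun h => hP (hUP y' a y (mem_of_mem_nhds hU) h)⟩
    intro y hy
    by_contra hcon
    obtain ⟨x, -, hx1, hx2⟩ := hconn A A' hAo hAo' (fun x hx => by
      by_cases h : PPT f w N B v R x
      · exact Or.inl ⟨hx, h⟩
      · exact Or.inr ⟨hx, h⟩) ⟨y₁, hy₁, hy₁, hP₁⟩ ⟨y, hy, hy, hcon⟩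
    exact hx2.2 hx1.2
  refine ⟨n, B, v, R, hRpos, fun y₀ hy₀ => ?_⟩
  obtain ⟨E, Γ, _, _, _, _, _, _, 𝓕, q, hM, ht, hT⟩ := hAB y₀ hy₀
  obtain ⟨W, hW, hK⟩ := I.w p d Z Y f w E Γ 𝓕 q _ hf hM hw
  have h1 := (hall y₀ hy₀).all I H hd hf hw hM hW hK ht
    ((chartAt (Cm p) y₀).left_inv (mem_chart_source _ _))
  obtain ⟨hfin, M, M', hc, h2⟩ := h1.move H hd hK
  obtain ⟨T', s, hT', ho, ht', hs⟩ := H.gra p d E (⊥ : Subgroup Γ) (fsub 𝓕 (⊥ : Subgroup Γ)) hd'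
    (fun t ht => (h2 t ht).2.2.2.1) _ ht
  classical
  set P : Cm p → Fin n → ℂ := fun t => if ht : t ∈ T' then
    (M' t (hT' ht)).cl (ts fun i z => s i (t, z)) else 0 with hPdef
  have hPt : ∀ t (ht : t ∈ T'), P t = (M' t (hT' ht)).cl (ts fun i z => s i (t, z)) :=
    fun t ht => dif_pos ht
  exact ⟨{
    E := E
    Γ := Γ
    fin := hfin
    𝓕 := 𝓕
    q := q
    χ := chartAt (Cm p) y₀
    model := hM
    W := W
    pull := hW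
    kfam := hK
    card := hc
    T' := T'
    hT' := hT'
    isOpen' := ho
    s := s
    fam2 := hs
    M := fun t ht => M' t (hT' ht)
    form := fun t ht => (h2 t (hT' ht)).2.1
    kah := fun t ht => (h2 t (hT' ht)).2.2.1
    P := P
    per := hPt
    holP := fun k t₂ ht₂ => holP_of2 H hd' hT' ho hs ht M M' (fun t ht => (h2 t ht).1) hPt k ht₂
    nrm := fun t ht => by
      rw [hPt t ht]
      exact (h2 t (hT' ht)).2.2.2.2 _ (hs.gen t (hT' ht) ht) },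
    mem_chart_source _ _, ht', fun t ht => hT t (hT' ht)⟩

end Vale.Agent.P281.H399.HK
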