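import Vale.Agent.P281.H399.HK.Glob2
import Vale.Agent.P281.H594.HK.Per0

/-!
# P281, project T-HK, block G1' (helper399), 4: `Glob2Stmt` from the blocks
-/

open Set Filter Metric MeasureTheory Vale.Agent.P281 Vale.Agent.P281.H713 Vale.Agent.P272.K
open scoped Topology ContDiff Manifold ComplexConjugate ComplexOrder

noncomputable section

namespace Vale.Agent.P281.H399.HK

open Vale.Agent.P281.H64.TK Vale.Agent.P281.H64.TK.TS Vale.Agent.P281.H83.HK

theorem bilCl (fo : FormsStmt) : BilClStmt := by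
  intro d E Γ _ _ _ _ _ _ S w α β n M hd hw ha hb
  have h := (fo d E Γ S (by omega)).2.1 w hw
  exact H594.HK.bil_cl (by omega) M ha hb h.1 h.2

/-- **G1'** -/
theorem glob (I : Inputs) (mark : MarkStmt) (gc : Gen2ConstStmt) (per : Per2Stmt)
    (pm : PullMark2Stmt) (gra : Grau2Stmt) (holP : HolP2Stmt) (kc : KConst2Stmt) (ra : RatioStmt)
    (fo : FormsStmt) : Glob2Stmt :=
  glob2 I ⟨gc, per, gra, holP, ra, fo, bilCl fo, mark, kc, pm⟩

end Vale.Agent.P281.H399.HK
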