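import Vale.Agent.P281.H399.HK.Cmp
import Vale.Agent.P281.H125.TS.C2

/-!
# P281, project T-HK (helper399): comparison of two manifolds (volumes)
-/

open Set Filter Metric MeasureTheory Vale.Agent.P281 Vale.Agent.P281.H713 Vale.Agent.P272.K
open scoped Topology ContDiff Manifold ComplexConjugate ComplexOrder

set_option linter.unusedSectionVars false

noncomputable section

namespace Vale.Agent.P281.H399.HK

open Vale.Agent.P281.H64.TK Vale.Agent.P281.H64.TK.TS Vale.Agent.P281.H864.TS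
open Vale.Agent.P281.H603.TE (Cmp)
open Vale.Agent.P281.H864.K (holCompat_compat holCompat_refl)
open Vale.Agent.P281.H399.TS Vale.Agent.P281.H83.HK

variable {d : ℕ}

theorem tf_single (m : Matrix (Fin d) (Fin d) ℂ) (a b : Fin d) :
    tf m (Pi.single a 1) (Pi.single b 1) = m a b := by
  rw [tf_dot, Matrix.mulVec_single_one, single_one_dotProduct]
  rfl

theorem tf_inj {m m' : Matrix (Fin d) (Fin d) ℂ} (h : ∀ u v, tf m u v = tf m' u v) : m = m' := by
  ext a b
  rw [← tf_single m, ← tf_single m', h]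

variable {E Γ E' Γ' : Type} [TopologicalSpace E] [T2Space E] [Group Γ] [MulAction Γ E]
  [ContinuousConstSMul Γ E] [TopologicalSpace E'] [T2Space E'] [Group Γ'] [MulAction Γ' E']
  [ContinuousConstSMul Γ' E'] [Subsingleton Γ] [Subsingleton Γ']
  {S : Sheets d E Γ} {w : Fin S.N → Cm d → Matrix (Fin d) (Fin d) ℂ}
  {S' : Sheets d E' Γ'} {w' : Fin S'.N → Cm d → Matrix (Fin d) (Fin d) ℂ} {τ : E ≃ₜ E'}
  {ρ : Γ ≃* Γ'}

theorem cont_det {s : Fin S.N → Cm d → Matrix (Fin d) (Fin d) ℂ} (hs : Hol2 S s) (i : Fin S.N) :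
    ContinuousOn (fun z => ((‖(s i z).det‖ : ℝ) : ℂ)) (ball 0 3) := by
  have h1 : ContinuousOn (fun z => s i z) (ball (0 : Cm d) 3) :=
    continuousOn_pi.2 fun a => continuousOn_pi.2 fun b => (hs.hol i a b).continuousOn
  exact Complex.continuous_ofReal.comp_continuousOn ((Continuous.comp_continuousOn (g := fun m : Matrix (Fin d) (Fin d) ℂ => m.det) (by fun_prop) h1).norm)

/-- the integral `∫ |det s|` depends only on the form -/
theorem cmp_volS (hd : 0 < d) (h : Cmp S w S' w' τ ρ)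
    {s : Fin S.N → Cm d → Matrix (Fin d) (Fin d) ℂ}
    {s' : Fin S'.N → Cm d → Matrix (Fin d) (Fin d) ℂ} (hs : Hol2 S s) (hs' : Hol2 S' s')
    (hP : Pull2 S S' τ (ts s) (ts s')) : volS S s = volS S' s' := by
  unfold volS
  rw [H125.TS.c2a d E Γ S E' Γ' S' τ (fun i z => ((‖(s i z).det‖ : ℝ) : ℂ))
    (fun i z => ((‖(s' i z).det‖ : ℝ) : ℂ)) hd (cmp_difd h) (cont_det hs) (cont_det hs') ?_]
  intro i j z hz z' hz' ψ hψ
  obtain ⟨θ, h5, -, h7⟩ := cmp_tr h hz hz' hψ
  have h8 : s i z = pm (H64.TK.jac θ z) (s' j z') := by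
    refine tf_inj fun u v => ?_
    rw [tf_pm, ← h7, ← h7]
    exact hP i j z hz z' hz' ψ hψ u v
  have h9 : (fderiv ℝ ψ z).det = ‖(H64.TK.jac θ z).det‖ ^ 2 := by
    rw [← H864.K.det_fderiv_real h5.an.differentiableAt]
    congr 1
    ext v
    rw [h7, h5.an.differentiableAt.fderiv_restrictScalars ℝ, jac_mulVec]
    rfl
  rw [h8, pm_det, h9, norm_mul, norm_pow]
  push_cast
  ring

end Vale.Agent.P281.H399.HK
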