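import Vale.Agent.P281.H399.TS.Glob
import Vale.Agent.P281.H399.HK.Vol
import Vale.Agent.P281.H83.HK.Spec
import Vale.Agent.P281.H747.TS.Mk
import Vale.Agent.P281.H747.TS.Alg

/-!
# P281, project T-HK, block G1' (helper399), 1: markings, generators and the norm in a family
-/

open Set Filter Metric MeasureTheory Vale.Agent.P281 Vale.Agent.P281.H713 Vale.Agent.P272.K
open scoped Topology ContDiff Manifold ComplexConjugate ComplexOrder

set_option linter.unusedSectionVars false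

noncomputable section

namespace Vale.Agent.P281.H399.HK

open Vale.Agent.P281.H64.TK Vale.Agent.P281.H64.TK.TS Vale.Agent.P281.H864.TS
open Vale.Agent.P281.H603.K (kah_fib)
open Vale.Agent.P281.H747.TS (l2_ext exact_congr exact_sub exact_add cl2_congr cl2_sub cl2_smul
  pull2_sub cl_congr cl_add cl_smul cl_of_exact exact_of_cl cl_conj cl2_conj cj2)
open Vale.Agent.P281.H399.TS (pull2_trans dif_refl const_of)
open Vale.Agent.P281.H83.HK

/-- the bilinear form `∫ α ∧ β ∧ w ^ (d - 2)` in terms of the classes (helper594) -/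
def BilClStmt : Prop :=
  ∀ (d : ℕ) (E Γ : Type) [TopologicalSpace E] [T2Space E] [Group Γ] [Subsingleton Γ]
    [MulAction Γ E] [ContinuousConstSMul Γ E] (S : Sheets d E Γ)
    (w : Fin S.N → Cm d → Matrix (Fin d) (Fin d) ℂ) (α β : Fin S.N → Cm d → L2 d) (n : ℕ)
    (M : Mark2 S n), 2 ≤ d → Kah S w → Cl2 S α → Cl2 S β →
    bil (Bc M (kw w)) (M.cl α) (M.cl β) = bW S α β (kw w)

section
variable {n : ℕ}

theorem bil_smul_star (B : Matrix (Fin n) (Fin n) ℝ) (c : ℂ) (x : Fin n → ℂ) :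
    (bil B (c • x) (star (c • x))).re = ‖c‖ ^ 2 * (bil B x (star x)).re := by
  have h : bil B (c • x) (star (c • x)) = ((‖c‖ ^ 2 : ℝ) : ℂ) * bil B x (star x) := by
    have hc : ((‖c‖ ^ 2 : ℝ) : ℂ) = c * conj c := by
      rw [Complex.mul_conj, Complex.normSq_eq_norm_sq]
    rw [hc]
    unfold bil
    rw [Finset.mul_sum]
    refine Finset.sum_congr rfl fun i _ => ?_
    rw [Finset.mul_sum]
    refine Finset.sum_congr rfl fun j _ => ?_
    simp only [Pi.smul_apply, Pi.star_apply, smul_eq_mul, star_mul', RCLike.star_def]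
    ring
  rw [h, Complex.re_ofReal_mul]

theorem continuous_bil (B : Matrix (Fin n) (Fin n) ℝ) (y : Fin n → ℂ) :
    Continuous fun x => bil B x y := by
  unfold bil
  fun_prop

end

section one
variable {d n : ℕ} {E Γ : Type} [TopologicalSpace E] [T2Space E] [Group Γ] [Subsingleton Γ]
  [MulAction Γ E] [ContinuousConstSMul Γ E] {S : Sheets d E Γ}

theorem tf_smul (c : ℂ) (m : Matrix (Fin d) (Fin d) ℂ) (u v : Cm d) :
    tf (c • m) u v = c * tf m u v := by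
  rw [tf_dot, tf_dot, Matrix.smul_mulVec, dotProduct_smul, smul_eq_mul]

theorem l2_sac (a b : L2 d) : a - b + b = a := l2_ext fun u v => sub_add_cancel (a u v) (b u v)

theorem sac_cl (M : Mark2 S n) (a b : Fin S.N → Cm d → L2 d) :
    M.cl (fun i z => (a i z - b i z) + b i z) = M.cl a := by
  congr 1
  funext i z
  exact l2_sac _ _

/-- a pull-back by the identity -/
theorem pull_id {α α' : Fin S.N → Cm d → L2 d} (h : Pull2 S S id α α') (i : Fin S.N) {z : Cm d}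
    (hz : z ∈ ball (0 : Cm d) 3) : α i z = α' i z := by
  refine l2_ext fun u v => ?_
  have h1 := h i i z hz z hz id ⟨contDiffAt_id, rfl, Eventually.of_forall fun _ => rfl⟩ u v
  rw [fderiv_id] at h1
  exact h1

theorem P_sub (i : Fin S.N) {z : Cm d} (hz : z ∈ S.P i) : z ∈ ball (0 : Cm d) 3 := by
  have : ‖z‖ < 1 := hz.1
  simp only [mem_ball, dist_zero_right]
  linarith

theorem int_cg {D D' : Fin S.N → Cm d → ℂ}
    (h : ∀ i, ∀ z ∈ ball (0 : Cm d) 3, D i z = D' i z) : S.int D = S.int D' := by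
  unfold Sheets.int
  refine Finset.sum_congr rfl fun i _ => ?_
  exact setIntegral_congr_fun (H840.TS.meas_P S i) fun z hz => h i z (P_sub i hz)

theorem int_ml {D : Fin S.N → Cm d → ℂ} (c : ℂ) :
    S.int (fun i z => c * D i z) = c * S.int D := by
  simp only [Sheets.int, Finset.mul_sum]
  exact Finset.sum_congr rfl fun i _ => integral_const_mul _ _

theorem volS_smul {s s' : Fin S.N → Cm d → Matrix (Fin d) (Fin d) ℂ} {c : ℂ}
    (h : ∀ i, ∀ z ∈ ball (0 : Cm d) 3, s' i z = c • s i z) :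
    volS S s' = ‖c‖ ^ d * volS S s := by
  unfold volS
  have h1 : S.int (fun i z => ((‖(s' i z).det‖ : ℝ) : ℂ)) =
      ((‖c‖ ^ d : ℝ) : ℂ) * S.int fun i z => ((‖(s i z).det‖ : ℝ) : ℂ) := by
    rw [← int_ml]
    refine int_cg fun i z hz => ?_
    rw [h i z hz, Matrix.det_smul, norm_mul, norm_pow, Fintype.card_fin]
    push_cast
    ring
  rw [h1, Complex.re_ofReal_mul]

theorem volS_pos {s : Fin S.N → Cm d → Matrix (Fin d) (Fin d) ℂ} (hs : Hol2 S s)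
    (hd : DetNe S s) : 0 < volS S s := by
  refine H747.TS.int_pos S (fun i z => ‖(s i z).det‖) (fun i => ?_) (fun i z _ => norm_nonneg _)
    (fun i j z hz z' hz' e h0 => ?_) ?_
  · have h1 : ContinuousOn (fun z => s i z) (ball (0 : Cm d) 3) :=
      continuousOn_pi.2 fun a => continuousOn_pi.2 fun b => (hs.hol i a b).continuousOn
    exact (Continuous.comp_continuousOn (g := fun m : Matrix (Fin d) (Fin d) ℂ => m.det)
      (by fun_prop) h1).norm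
  · obtain ⟨θ, hθ⟩ := H399.TS.exists_htr_self S i j hz hz' e
    rw [ch2 hs hz hz' hθ, pm_det] at h0
    intro h1
    rw [norm_eq_zero] at h1
    exact h0 (by rw [h1, mul_zero, norm_zero])
  · obtain ⟨i, z, hz, h⟩ := hd
    exact ⟨i, z, hz, norm_ne_zero_iff.2 h⟩

/-- the norm of the generator, with the constant `R` -/
def HasR (B : Matrix (Fin n) (Fin n) ℝ) (M : Mark2 S n) (R : ℝ) : Prop :=
  ∀ s, Gen2 S s → volS S s ^ 2 = R * (bil B (M.cl (ts s)) (star (M.cl (ts s)))).re ^ d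

theorem gen_cl (fo : FormsStmt) (hd : 0 < d) (M : Mark2 S n)
    {s s' : Fin S.N → Cm d → Matrix (Fin d) (Fin d) ℂ} (hs : Gen2 S s) (hs' : Gen2 S s') :
    ∃ c : ℂ, c ≠ 0 ∧ M.cl (ts s') = c • M.cl (ts s) ∧ volS S s' = ‖c‖ ^ d * volS S s := by
  obtain ⟨c, hc⟩ := hs.unique s' hs'.form
  have h1 : Cl2 S (ts s) := (fo d E Γ S hd).1 s hs.form
  have h2 : Cl2 S (ts s') := (fo d E Γ S hd).1 s' hs'.form
  refine ⟨c, ?_, ?_, volS_smul hc⟩
  · rintro rfl
    obtain ⟨i, z, hz, hne⟩ := hs'.ne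
    exact hne (by rw [hc i z hz, zero_smul])
  · rw [← cl_smul M h1 c]
    refine cl_congr M h2 fun i z hz => l2_ext fun u v => ?_
    show tf (s' i z) u v = c * tf (s i z) u v
    rw [hc i z hz, tf_smul]

theorem HasR.of_one (fo : FormsStmt) (hd : 0 < d) {B : Matrix (Fin n) (Fin n) ℝ} {M : Mark2 S n}
    {R : ℝ} {s : Fin S.N → Cm d → Matrix (Fin d) (Fin d) ℂ} (hs : Gen2 S s)
    (h : volS S s ^ 2 = R * (bil B (M.cl (ts s)) (star (M.cl (ts s)))).re ^ d) :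
    HasR B M R := by
  intro s' hs'
  obtain ⟨c, -, h1, h2⟩ := gen_cl fo hd M hs hs'
  rw [h2, h1, bil_smul_star, mul_pow, mul_pow, h]
  ring

end one

/-! ### Families -/

section fam
variable {p d n : ℕ} {E Γ : Type} [TopologicalSpace E] [T2Space E] [Group Γ] [Subsingleton Γ]
  [MulAction Γ E] [ContinuousConstSMul Γ E] {𝓕 : Fam p d E Γ} {t s r : Cm p}
  {ht : t ∈ 𝓕.T} {hs : s ∈ 𝓕.T} {hr : r ∈ 𝓕.T}

theorem dif_f (ht : t ∈ 𝓕.T) (hs : s ∈ 𝓕.T) :
    Dif (𝓕.at t ht) (𝓕.at s hs) (Homeomorph.refl E) := dif_refl (𝓕.compat t s ht hs)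

theorem htr_f (ht : t ∈ 𝓕.T) (hs : s ∈ 𝓕.T) : HasTr (𝓕.at t ht) (𝓕.at s hs) id :=
  hasTr_of_dif (dif_f ht hs)

/-- two pull-backs of the same form -/
theorem pull_two (ht : t ∈ 𝓕.T) (hs : s ∈ 𝓕.T) (hr : r ∈ 𝓕.T)
    {o : Fin (𝓕.at r hr).N → Cm d → L2 d} (ho : F2On (𝓕.at r hr) univ o) :
    Pull2 (𝓕.at t ht) (𝓕.at s hs) id (pb2 (𝓕.at t ht) (𝓕.at r hr) id o)
      (pb2 (𝓕.at s hs) (𝓕.at r hr) id o) :=
  pull2_trans (htr_f ht hr) (htr_f hr hs) (pb2_pull ho)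
    (pull_symm (τ := Homeomorph.refl E) (dif_f hs hr) (pb2_pull ho))

variable {W : Fin 𝓕.N → Cm p × Cm d → Matrix (Fin p ⊕ Fin d) (Fin p ⊕ Fin d) ℂ}

theorem kw_cl (fo : FormsStmt) (hd : 0 < d) (hW : KFam 𝓕 W) (ht : t ∈ 𝓕.T) :
    Cl2 (𝓕.at t ht) (kw (fibW W t)) :=
  ((fo d E Γ (𝓕.at t ht) hd).2.1 (fibW W t) (kah_fib hW ht)).1

/-- **the class of the Kähler metric is constant in the family** -/
theorem kw_exact (mark : MarkStmt) (kc : KConst2Stmt) (fo : FormsStmt) (hd : 0 < d)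
    (hW : KFam 𝓕 W) (ht : t ∈ 𝓕.T) (hs : s ∈ 𝓕.T) :
    Exact (𝓕.at t ht) fun i z => pb2 (𝓕.at t ht) (𝓕.at s hs) id (kw (fibW W s)) i z -
      kw (fibW W t) i z := by
  classical
  obtain ⟨n, ⟨M⟩⟩ := mark d E Γ (𝓕.at t ht) hd
  set G : Cm p → Fin n → ℂ := fun y => if hy : y ∈ 𝓕.T then
    M.cl (pb2 (𝓕.at t ht) (𝓕.at y hy) id (kw (fibW W y))) else 0 with hG
  have hGy : ∀ y (hy : y ∈ 𝓕.T),
      G y = M.cl (pb2 (𝓕.at t ht) (𝓕.at y hy) id (kw (fibW W y))) := fun y hy => dif_pos hy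
  have cy : ∀ x (hx : x ∈ 𝓕.T) y (hy : y ∈ 𝓕.T),
      Cl2 (𝓕.at x hx) (pb2 (𝓕.at x hx) (𝓕.at y hy) id (kw (fibW W y))) := fun x hx y hy =>
    pb2_cl2 continuous_id (htr_f hx hy) (kw_cl fo hd hW hy)
  have key : ∀ x ∈ 𝓕.T, ∀ᶠ y in 𝓝 x, G y = G x := by
    intro x hx
    obtain ⟨m, ⟨Mx⟩⟩ := mark d E Γ (𝓕.at x hx) hd
    have h1 := kc p d E Γ 𝓕 W x hx m Mx (fun y => if hy : y ∈ 𝓕.T then
      pb2 (𝓕.at x hx) (𝓕.at y hy) id (kw (fibW W y)) else fun _ _ => 0) hd hW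
      (fun y hy => by
        rw [dif_pos hy]
        exact ⟨cy x hx y hy, pb2_pull (kw_cl fo hd hW hy).toF2On⟩)
    filter_upwards [h1, 𝓕.isOpen.mem_nhds hx] with y a b
    rw [dif_pos b, dif_pos hx] at a
    have h2 : Exact (𝓕.at x hx) fun i z => pb2 (𝓕.at x hx) (𝓕.at y b) id (kw (fibW W y)) i z -
        pb2 (𝓕.at x hx) (𝓕.at x hx) id (kw (fibW W x)) i z := by
      refine exact_of_cl Mx (cl2_sub (cy x hx y b) (cy x hx x hx)) ?_
      have h3 := cl_add Mx (cl2_sub (cy x hx y b) (cy x hx x hx)) (cy x hx x hx)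
      rw [sac_cl, a] at h3
      exact (left_eq_add.1 (h3.trans (add_comm _ _)))
    have h5 : Exact (𝓕.at t ht) fun i z => pb2 (𝓕.at t ht) (𝓕.at y b) id (kw (fibW W y)) i z -
        pb2 (𝓕.at t ht) (𝓕.at x hx) id (kw (fibW W x)) i z :=
      pb_exact continuous_id (htr_f ht hx) (pull2_sub
        (pull_two ht hx b (kw_cl fo hd hW b).toF2On)
        (pull_two ht hx hx (kw_cl fo hd hW hx).toF2On)) h2
    rw [hGy y b, hGy x hx]
    have h6 := cl_add M (cl2_sub (cy t ht y b) (cy t ht x hx)) (cy t ht x hx)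
    rw [cl_of_exact M (cl2_sub (cy t ht y b) (cy t ht x hx)) h5, zero_add] at h6
    rw [← h6, sac_cl]
  have h7 : G s = G t := const_of 𝓕.conn 𝓕.isOpen key ht hs
  rw [hGy s hs, hGy t ht] at h7
  have h8 : M.cl (pb2 (𝓕.at t ht) (𝓕.at t ht) id (kw (fibW W t))) = M.cl (kw (fibW W t)) :=
    cl_congr M (cy t ht t ht) fun i z hz =>
      pull_id (pb2_pull (kw_cl fo hd hW ht).toF2On) i hz
  have h9 := cl_add M (cl2_sub (cy t ht s hs) (kw_cl fo hd hW ht)) (kw_cl fo hd hW ht)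
  refine exact_of_cl M (cl2_sub (cy t ht s hs) (kw_cl fo hd hW ht)) ?_
  rw [sac_cl, h7, h8] at h9
  exact (left_eq_add.1 (h9.trans (add_comm _ _)))

/-- the marking `M` of the manifold number `t`, at `s` -/
structure IsMvd (W : Fin 𝓕.N → Cm p × Cm d → Matrix (Fin p ⊕ Fin d) (Fin p ⊕ Fin d) ℂ)
    (M : Mark2 (𝓕.at t ht) n) (M' : Mark2 (𝓕.at s hs) n) : Prop where
  form : Bc M' (kw (fibW W s)) = Bc M (kw (fibW W t))
  kah : kc M' (fibW W s) = kc M (fibW W t)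
  cl : ∀ α α', Cl2 (𝓕.at s hs) α → Cl2 (𝓕.at t ht) α' →
    Pull2 (𝓕.at s hs) (𝓕.at t ht) id α α' → M'.cl α = M.cl α'

theorem exists_mvd (mark : MarkStmt) (kc : KConst2Stmt) (fo : FormsStmt) (pm : PullMark2Stmt)
    (hd : 2 ≤ d) (hW : KFam 𝓕 W) (M : Mark2 (𝓕.at t ht) n) (hs : s ∈ 𝓕.T) :
    ∃ M' : Mark2 (𝓕.at s hs) n, IsMvd W M M' := by
  have hd' : 0 < d := by omega
  obtain ⟨M', h1, h2, h3⟩ := pm d E Γ (𝓕.at s hs) E Γ (𝓕.at t ht) (Homeomorph.refl E) n M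
    (fibW W s) (fibW W t) (pb2 (𝓕.at s hs) (𝓕.at t ht) id (kw (fibW W t))) hd (dif_f hs ht)
    (kah_fib hW hs) (kah_fib hW ht)
    (pb2_cl2 continuous_id (htr_f hs ht) (kw_cl fo hd' hW ht))
    (pb2_pull (kw_cl fo hd' hW ht).toF2On) (kw_exact mark kc fo hd' hW hs ht)
  exact ⟨M', h1, h2, h3⟩

/-- the classes are compatible -/
theorem cl_mvd {M : Mark2 (𝓕.at t ht) n} {M' : Mark2 (𝓕.at s hs) n} {M'' : Mark2 (𝓕.at r hr) n}
    (h' : IsMvd W M M') (h'' : IsMvd W M M'') {o : Fin (𝓕.at r hr).N → Cm d → L2 d}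
    (ho : Cl2 (𝓕.at r hr) o) :
    M'.cl (pb2 (𝓕.at s hs) (𝓕.at r hr) id o) = M''.cl o := by
  have c1 : Cl2 (𝓕.at t ht) (pb2 (𝓕.at t ht) (𝓕.at r hr) id o) :=
    pb2_cl2 continuous_id (htr_f ht hr) ho
  have c2 : Cl2 (𝓕.at s hs) (pb2 (𝓕.at s hs) (𝓕.at r hr) id o) :=
    pb2_cl2 continuous_id (htr_f hs hr) ho
  have p1 : Pull2 (𝓕.at r hr) (𝓕.at t ht) id o (pb2 (𝓕.at t ht) (𝓕.at r hr) id o) :=
    pull_symm (τ := Homeomorph.refl E) (dif_f ht hr) (pb2_pull ho.toF2On)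
  rw [h''.cl _ _ ho c1 p1, h'.cl _ _ c2 c1 (pull_two hs ht hr ho.toF2On)]

end fam

end Vale.Agent.P281.H399.HK
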