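import Vale.Agent.P281.H399.HK.FamD

/-!
# P281, project T-HK, block G1' (helper399), 2: the constant of the norm in a family
-/

open Set Filter Metric MeasureTheory Vale.Agent.P281 Vale.Agent.P281.H713 Vale.Agent.P272.K
open scoped Topology ContDiff Manifold ComplexConjugate ComplexOrder

set_option linter.unusedSectionVars false

noncomputable section

namespace Vale.Agent.P281.H399.HK

open Vale.Agent.P281.H64.TK Vale.Agent.P281.H64.TK.TS Vale.Agent.P281.H864.TS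
open Vale.Agent.P281.H603.K (kah_fib)
open Vale.Agent.P281.H747.TS (l2_ext exact_congr exact_sub exact_add cl2_congr cl2_sub cl2_smul
  pull2_sub cl_congr cl_add cl_smul cl_of_exact exact_of_cl cl_conj cl2_conj cj2)
open Vale.Agent.P281.H399.TS (pull2_trans dif_refl const_of)
open Vale.Agent.P281.H83.HK

section one
variable {d n : ℕ} {E Γ : Type} [TopologicalSpace E] [T2Space E] [Group Γ] [Subsingleton Γ]
  [MulAction Γ E] [ContinuousConstSMul Γ E] {S : Sheets d E Γ}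

theorem cjs_eq (α : Fin S.N → Cm d → L2 d) : cjs α = fun i z => cj2 d (α i z) := by
  funext i z
  exact l2_ext fun u v => rfl

theorem cl_cjs (M : Mark2 S n) {α : Fin S.N → Cm d → L2 d} (hα : Cl2 S α) :
    M.cl (cjs α) = star (M.cl α) := by
  rw [cjs_eq, cl_conj M hα]
  rfl

/-- the inputs, packed -/
structure Ins : Prop where
  gc : Gen2ConstStmt
  per : Per2Stmt
  gra : Grau2Stmt
  holP : HolP2Stmt
  ra : RatioStmt
  fo : FormsStmt
  bil : BilClStmt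
  mark : MarkStmt
  kc : KConst2Stmt
  pm : PullMark2Stmt

/-- the norm equation, on the side of the period -/
theorem per_pos [PreconnectedSpace E] [Nonempty E] (per : Per2Stmt) (hd : 2 ≤ d)
    {w : Fin S.N → Cm d → Matrix (Fin d) (Fin d) ℂ} (hw : Kah S w)
    {s : Fin S.N → Cm d → Matrix (Fin d) (Fin d) ℂ} (hs : Gen2 S s) (M : Mark2 S n) :
    0 < (bil (Bc M (kw w)) (M.cl (ts s)) (star (M.cl (ts s)))).re :=
  (per d E Γ S w s n M hd hw hs).1.pos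

end one

section fam
variable {p d n : ℕ} {E Γ : Type} [TopologicalSpace E] [T2Space E] [PreconnectedSpace E]
  [Nonempty E] [Group Γ] [Subsingleton Γ]
  [MulAction Γ E] [ContinuousConstSMul Γ E] {𝓕 : Fam p d E Γ} {t s r x y : Cm p}
  {ht : t ∈ 𝓕.T} {hs : s ∈ 𝓕.T} {hr : r ∈ 𝓕.T} {hx : x ∈ 𝓕.T} {hy : y ∈ 𝓕.T}
  {W : Fin 𝓕.N → Cm p × Cm d → Matrix (Fin p ⊕ Fin d) (Fin p ⊕ Fin d) ℂ}

/-- two members of the family with classes which are not orthogonal -/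
theorem hasR_two (H : Ins) (hd : 2 ≤ d) (hW : KFam 𝓕 W) {B : Matrix (Fin n) (Fin n) ℝ}
    {Mx : Mark2 (𝓕.at x hx) n} {My : Mark2 (𝓕.at y hy) n}
    (hBx : Bc Mx (kw (fibW W x)) = B) (hBy : Bc My (kw (fibW W y)) = B)
    {sx : Fin (𝓕.at x hx).N → Cm d → Matrix (Fin d) (Fin d) ℂ} (gx : Gen2 (𝓕.at x hx) sx)
    {sy : Fin (𝓕.at y hy).N → Cm d → Matrix (Fin d) (Fin d) ℂ} (gy : Gen2 (𝓕.at y hy) sy)
    (hne : bil B (Mx.cl (pb2 (𝓕.at x hx) (𝓕.at y hy) id (ts sy))) (star (Mx.cl (ts sx))) ≠ 0)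
    (R : ℝ) : HasR B My R ↔ HasR B Mx R := by
  have hd' : 0 < d := by omega
  have kx := kah_fib hW hx
  have ky := kah_fib hW hy
  have cx : Cl2 (𝓕.at x hx) (ts sx) := (H.fo d E Γ (𝓕.at x hx) hd').1 sx gx.form
  have cy : Cl2 (𝓕.at y hy) (ts sy) := (H.fo d E Γ (𝓕.at y hy) hd').1 sy gy.form
  have ccx : Cl2 (𝓕.at x hx) (cjs (ts sx)) := (H.fo d E Γ (𝓕.at x hx) hd').2.2 _ cx
  have ca : Cl2 (𝓕.at x hx) (pb2 (𝓕.at x hx) (𝓕.at y hy) id (ts sy)) :=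
    pb2_cl2 continuous_id (htr_f hx hy) cy
  have ck : Cl2 (𝓕.at x hx) (pb2 (𝓕.at x hx) (𝓕.at y hy) id (kw (fibW W y))) :=
    pb2_cl2 continuous_id (htr_f hx hy) (kw_cl H.fo hd' hW hy)
  have h1 : bW (𝓕.at x hx) (pb2 (𝓕.at x hx) (𝓕.at y hy) id (ts sy)) (cjs (ts sx))
      (kw (fibW W x)) ≠ 0 := by
    rw [← H.bil d E Γ (𝓕.at x hx) (fibW W x) _ _ n Mx hd kx ca ccx, hBx, cl_cjs Mx cx]
    exact hne
  have h2 := H.ra d E Γ (𝓕.at x hx) E Γ (𝓕.at y hy) (Homeomorph.refl E) (fibW W x) (fibW W y) sx sy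
    _ _ hd (dif_f hx hy) kx ky gx gy ca (pb2_pull cy.toF2On) ck
    (pb2_pull (kw_cl H.fo hd' hW hy).toF2On) (kw_exact H.mark H.kc H.fo hd' hW hx hy) h1
  have ex := (H.per d E Γ (𝓕.at x hx) (fibW W x) sx n Mx hd kx gx).2
  have ey := (H.per d E Γ (𝓕.at y hy) (fibW W y) sy n My hd ky gy).2
  have px := per_pos H.per hd kx gx Mx
  have py := per_pos H.per hd ky gy My
  rw [hBx] at ex px
  rw [hBy] at ey py
  rw [← ex, ← ey] at h2
  have px' := pow_pos px d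
  have py' := pow_pos py d
  constructor
  · intro h
    have h3 := h sy gy
    refine HasR.of_one H.fo hd' gx ?_
    rw [h3] at h2
    have h4 : (volS (𝓕.at x hx) sx ^ 2 -
        R * (bil B (Mx.cl (ts sx)) (star (Mx.cl (ts sx)))).re ^ d) *
        (bil B (My.cl (ts sy)) (star (My.cl (ts sy)))).re ^ d = 0 := by linarith
    rcases mul_eq_zero.1 h4 with h5 | h5
    · linarith
    · exact absurd h5 py'.ne'
  · intro h
    have h3 := h sx gx
    refine HasR.of_one H.fo hd' gy ?_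
    rw [h3] at h2
    have h4 : (volS (𝓕.at y hy) sy ^ 2 -
        R * (bil B (My.cl (ts sy)) (star (My.cl (ts sy)))).re ^ d) *
        (bil B (Mx.cl (ts sx)) (star (Mx.cl (ts sx)))).re ^ d = 0 := by linarith
    rcases mul_eq_zero.1 h4 with h5 | h5
    · linarith
    · exact absurd h5 px'.ne'

/-- near `x` -/
theorem hasR_near (H : Ins) (hd : 2 ≤ d) (hW : KFam 𝓕 W)
    (gen : ∀ t (ht : t ∈ 𝓕.T), ∃ s, Gen2 (𝓕.at t ht) s) {M : Mark2 (𝓕.at t ht) n}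
    {M' : ∀ s (hs : s ∈ 𝓕.T), Mark2 (𝓕.at s hs) n} (hM' : ∀ s hs, IsMvd W M (M' s hs))
    (hx : x ∈ 𝓕.T) (R : ℝ) : ∀ᶠ y in 𝓝 x, ∀ hy : y ∈ 𝓕.T,
      (HasR (Bc M (kw (fibW W t))) (M' y hy) R ↔ HasR (Bc M (kw (fibW W t))) (M' x hx) R) := by
  classical
  have hd' : 0 < d := by omega
  obtain ⟨T₁, s, hT₁, ho, hxT, hF⟩ := H.gra p d E Γ 𝓕 hd' gen x hx
  set B := Bc M (kw (fibW W t)) with hB
  set α : Cm p → Fin (𝓕.at x (hT₁ hxT)).N → Cm d → L2 d := fun y => if hy : y ∈ T₁ then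
    pb2 (𝓕.at x (hT₁ hxT)) (𝓕.at y (hT₁ hy)) id (ts fun i z => s i (y, z))
      else fun _ _ => 0 with hα
  have c : ∀ y (hy : y ∈ T₁), Cl2 (𝓕.at y (hT₁ hy)) (ts fun i z => s i (y, z)) := fun y hy =>
    (H.fo d E Γ (𝓕.at y (hT₁ hy)) hd').1 _ (hF.gen y (hT₁ hy) hy).form
  have h1 := H.holP p d E Γ 𝓕 T₁ hT₁ s x hxT n (M' x (hT₁ hxT)) α hd' ho hF (fun y hy => by
    rw [hα]
    dsimp only
    rw [dif_pos hy]
    exact ⟨pb2_cl2 continuous_id (htr_f _ _) (c y hy), pb2_pull (c y hy).toF2On⟩)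
  set P : Fin n → ℂ := (M' x hx).cl (ts fun i z => s i (x, z)) with hP
  have h2 : ContinuousAt (fun y => bil B ((M' x hx).cl (α y)) (star P)) x :=
    (continuous_bil B (star P)).continuousAt.comp
      (f := fun y => (M' x hx).cl (α y)) (continuousAt_pi.2 fun k => (h1 k).continuousAt)
  have h3 : (M' x hx).cl (α x) = P := by
    rw [hα]
    dsimp only
    rw [dif_pos hxT]
    exact cl_congr _ (pb2_cl2 continuous_id (htr_f _ _) (c x hxT)) fun i z hz =>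
      pull_id (pb2_pull (c x hxT).toF2On) i hz
  have hBx : Bc (M' x hx) (kw (fibW W x)) = B := (hM' x hx).form
  have h4 : bil B ((M' x hx).cl (α x)) (star P) ≠ 0 := by
    rw [h3]
    have := per_pos H.per hd (kah_fib hW hx) (hF.gen x hx hxT) (M' x hx)
    rw [hBx] at this
    intro h0
    rw [← hP, h0] at this
    simp at this
  filter_upwards [h2.eventually_ne h4, ho.mem_nhds hxT] with y a b hy
  rw [hα] at a
  dsimp only at a
  rw [dif_pos b] at a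
  exact hasR_two H hd hW hBx (hM' y hy).form (hF.gen x hx hxT) (hF.gen y hy b) a R

/-- everywhere -/
theorem hasR_all (H : Ins) (hd : 2 ≤ d) (hW : KFam 𝓕 W)
    (gen : ∀ t (ht : t ∈ 𝓕.T), ∃ s, Gen2 (𝓕.at t ht) s) {M : Mark2 (𝓕.at t ht) n}
    {M' : ∀ s (hs : s ∈ 𝓕.T), Mark2 (𝓕.at s hs) n} (hM' : ∀ s hs, IsMvd W M (M' s hs))
    {R : ℝ} (hR : HasR (Bc M (kw (fibW W t))) M R) (hs : s ∈ 𝓕.T) :
    HasR (Bc M (kw (fibW W t))) (M' s hs) R := by
  have hd' : 0 < d := by omega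
  set G : Cm p → Prop := fun y =>
    ∃ hy : y ∈ 𝓕.T, HasR (Bc M (kw (fibW W t))) (M' y hy) R with hG
  have key : ∀ x ∈ 𝓕.T, ∀ᶠ y in 𝓝 x, G y = G x := by
    intro x hx
    filter_upwards [hasR_near H hd hW gen hM' hx R, 𝓕.isOpen.mem_nhds hx] with y a b
    apply propext
    exact ⟨fun ⟨_, h⟩ => ⟨hx, (a b).1 h⟩, fun ⟨_, h⟩ => ⟨b, (a b).2 h⟩⟩
  have h0 : G t := by
    refine ⟨ht, fun s gs => ?_⟩
    have c : Cl2 (𝓕.at t ht) (ts s) := (H.fo d E Γ (𝓕.at t ht) hd').1 s gs.form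
    have e : (M' t ht).cl (ts s) = M.cl (ts s) :=
      (hM' t ht).cl _ _ c c fun i j z hz z' hz' ψ hψ u v =>
        c.change i j z hz z' hz' (mem_univ _) ψ hψ u v
    rw [e]
    exact hR s gs
  have h1 : G s = G t := const_of 𝓕.conn 𝓕.isOpen key ht hs
  obtain ⟨_, h2⟩ : G s := by rw [h1]; exact h0
  exact h2

/-- **moving in a family** -/
theorem move_fam (H : Ins) (hd : 2 ≤ d) (hW : KFam 𝓕 W)
    (g1 : ∃ s, Gen2 (𝓕.at t ht) s) (M : Mark2 (𝓕.at t ht) n) {B : Matrix (Fin n) (Fin n) ℝ}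
    {v : Fin n → ℝ} {R : ℝ} (hB : Bc M (kw (fibW W t)) = B) (hv : kc M (fibW W t) = v)
    (hR : HasR B M R) :
    ∃ M' : ∀ s (hs : s ∈ 𝓕.T), Mark2 (𝓕.at s hs) n, ∀ s (hs : s ∈ 𝓕.T), IsMvd W M (M' s hs) ∧
      Bc (M' s hs) (kw (fibW W s)) = B ∧ kc (M' s hs) (fibW W s) = v ∧
      (∃ s', Gen2 (𝓕.at s hs) s') ∧ HasR B (M' s hs) R := by
  choose M' hM' using fun s (hs : s ∈ 𝓕.T) =>
    exists_mvd (𝓕 := 𝓕) (t := t) (ht := ht) H.mark H.kc H.fo H.pm hd hW M hs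
  have gen : ∀ s (hs : s ∈ 𝓕.T), ∃ s', Gen2 (𝓕.at s hs) s' := fun s hs =>
    H.gc p d E Γ 𝓕 W hd hW t ht s hs g1
  refine ⟨M', fun s hs => ⟨hM' s hs, (hM' s hs).form.trans hB,
    (hM' s hs).kah.trans hv, gen s hs, ?_⟩⟩
  have h3 := hasR_all (t := t) (ht := ht) (s := s) H hd hW gen
    (M := M) (M' := M') hM' (R := R) (by rw [hB]; exact hR) hs
  rw [hB] at h3
  exact h3

end fam

end Vale.Agent.P281.H399.HK
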